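import Mathlib

/-!
# Pluri-anticanonical sections on complex manifolds: definitions
-/

open scoped Manifold ContDiff Topology
open Set Filter MeasureTheory

noncomputable section

namespace Vale.Agent.P299.H904

section sections

variable {E H H' : Type*} [NormedAddCommGroup E] [NormedSpace ℂ E]
  [TopologicalSpace H] [TopologicalSpace H']
  (I : ModelWithCorners ℂ E H) (I' : ModelWithCorners ℂ E H')
  {M M' : Type*} [TopologicalSpace M] [ChartedSpace H M] [TopologicalSpace M']
  [ChartedSpace H' M']

/-- The complex Jacobian determinant at `x` of a map `f` between complex manifolds of the same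
dimension: the determinant of the differential `T_x M → T_{f x} M'` (Mathlib identifies the
tangent spaces with the model space `E`, by means of the preferred charts at `x` and `f x`). -/
def jac (f : M → M') (x : M) : ℂ :=
  ContinuousLinearMap.det (show E →L[ℂ] E from mfderiv I I' f x)

/-- `σ` is, near `x₀`, a holomorphic section of the `m`-th power of the anticanonical bundle of
`M`. Here `σ x` is the coordinate of the section at `x`, for the identification of `T_x M` with
the model space `E`; its coordinate in the chart at `x₀` is `σ x * (jac of the chart at x) ^ m`. -/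
def IsAntiAt (m : ℕ) (σ : M → ℂ) (x₀ : M) : Prop :=
  ContMDiffAt I 𝓘(ℂ, ℂ) ω (fun x => σ x * jac I 𝓘(ℂ, E) (extChartAt I x₀) x ^ m) x₀

/-- `σ` is a holomorphic section of the `m`-th power of the anticanonical bundle of `M`. -/
def IsAnti (m : ℕ) (σ : M → ℂ) : Prop := ∀ x₀, IsAntiAt I m σ x₀

/-- `H⁰(M, -N K_M) ≠ 0` for some `N > 0`: some positive power of the anticanonical bundle of the
complex manifold `M` has a nonzero holomorphic section. -/
def AntiEffective (M : Type*) [TopologicalSpace M] [ChartedSpace H M] : Prop :=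
  ∃ (N : ℕ) (σ : M → ℂ), 0 < N ∧ IsAnti I N σ ∧ ∃ x, σ x ≠ 0

/-- A holomorphic action of the torus `(ℂ^*)^r` on the complex manifold `M`, written as a
holomorphic action of `ℂ^r` which is trivial on `(2πiℤ)^r`: `act u` is the action of
`(exp u_1, …, exp u_r)`. -/
structure TorusAction (r : ℕ) (M : Type*) [TopologicalSpace M] [ChartedSpace H M] where
  /-- the transformation `act u` of `M` -/
  act : (Fin r → ℂ) → M → M
  holo : ContMDiff (𝓘(ℂ, Fin r → ℂ).prod I) I ω (fun p : (Fin r → ℂ) × M => act p.1 p.2)
  zero : ∀ x, act 0 x = x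
  add : ∀ u v x, act (u + v) x = act u (act v x)
  period : ∀ j x, act (Pi.single j (2 * Real.pi * Complex.I)) x = x

variable {I}

/-- Some positive power of the anticanonical bundle of `M` has a nonzero holomorphic section which
is invariant under the action `A` of the torus. -/
def InvariantlyEffective {r : ℕ} (A : TorusAction I r M) : Prop :=
  ∃ (N : ℕ) (σ : M → ℂ), 0 < N ∧ IsAnti I N σ ∧ (∃ x, σ x ≠ 0) ∧
    ∀ u x, σ (A.act u x) = σ x * jac I I (A.act u) x ^ N

variable (I)

/-- The coordinate of the section `σ` of the `m`-th power of the anticanonical bundle in the chart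
at `x₀`, as a function on the model space `E`. -/
def coordAt (m : ℕ) (x₀ : M) (σ : M → ℂ) (w : E) : ℂ :=
  σ ((extChartAt I x₀).symm w) *
    jac I 𝓘(ℂ, E) (extChartAt I x₀) ((extChartAt I x₀).symm w) ^ m

/-- The linear system spanned by the sections `s i` of the `m`-th power of the anticanonical bundle,
divided by `m`, is log canonical: in all charts `(∑ |s_i|²)^{-c/m}` is locally integrable for all
`0 ≤ c < 1`. Here `μ` is a Haar measure on the model space `E`. -/
def IsLC [MeasurableSpace E] (μ : Measure E) (m : ℕ) {ι : Type*} [Fintype ι] (s : ι → M → ℂ) :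
    Prop :=
  ∀ (x₀ x : M), x ∈ (chartAt H x₀).source → ∀ c : ℝ, 0 ≤ c → c < 1 →
    ∃ K ∈ 𝓝 (extChartAt I x₀ x), ∫⁻ w in K, (∑ i, ‖coordAt I m x₀ (s i) w‖ₑ ^ 2) ^ (-(c / m)) ∂μ < ⊤

/-- `M` carries a log canonical family of pluri-anticanonical sections: for some `m > 0` there is a
finite family of sections of `-m K_M` which is log canonical, or has no common zero. -/
def HasLCFamily [MeasurableSpace E] (μ : Measure E) (M : Type*) [TopologicalSpace M]
    [ChartedSpace H M] : Prop :=
  ∃ (m N : ℕ) (s : Fin N → M → ℂ), 0 < m ∧ (∀ i, IsAnti I m (s i)) ∧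
    (IsLC I μ m s ∨ ∀ z, ∃ i, s i z ≠ 0)

end sections

section quotients

variable {E F H G HX : Type*} [NormedAddCommGroup E] [NormedSpace ℂ E]
  [NormedAddCommGroup F] [NormedSpace ℂ F]
  [TopologicalSpace H] [TopologicalSpace G] [TopologicalSpace HX]
  (I : ModelWithCorners ℂ E H) {J : ModelWithCorners ℂ F G}
  (K : ModelWithCorners ℂ (E × F) HX) {D Z X Γ : Type*}
  [TopologicalSpace D] [ChartedSpace H D] [TopologicalSpace Z] [ChartedSpace G Z]
  [TopologicalSpace X] [ChartedSpace HX X] {r : ℕ}

/-- `X` is the quotient of `D × Z` by the diagonal action of a group `Γ` of biholomorphisms, `p` is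
the quotient map (a local biholomorphism), and the elements of the subgroup `Γ₀` of finite index
act on `Z` as elements of the torus. -/
structure IsTorusQuotient [Group Γ] [MulAction Γ D] [MulAction Γ Z] (A : TorusAction J r Z)
    (Γ₀ : Subgroup Γ) (p : D × Z → X) : Prop where
  holo_left : ∀ γ : Γ, ContMDiff I I ω (fun d : D => γ • d)
  holo_right : ∀ γ : Γ, ContMDiff J J ω (fun z : Z => γ • z)
  diffeo : IsLocalDiffeomorph (I.prod J) K ω p
  surj : Function.Surjective p
  fibre : ∀ a b : D × Z, p a = p b ↔ ∃ γ : Γ, (γ • a.1, γ • a.2) = b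
  index : Γ₀.FiniteIndex
  torus : ∀ γ ∈ Γ₀, ∃ u, ∀ z : Z, γ • z = A.act u z

/-- The subgroup `Γ₀` preserves a nonzero section of some positive power of the anticanonical
bundle of `D`. -/
def FixesSection (D : Type*) [TopologicalSpace D] [ChartedSpace H D] [Group Γ] [MulAction Γ D]
    (Γ₀ : Subgroup Γ) : Prop :=
  ∃ (k : ℕ) (t : D → ℂ), 0 < k ∧ IsAnti I k t ∧ (∃ d, t d ≠ 0) ∧
    ∀ γ ∈ Γ₀, ∀ d, t (γ • d) = t d * jac I I (fun y : D => γ • y) d ^ k

/-- `π : X → D` is a holomorphic fibre bundle with fibre `Z` and with structure group the torus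
which acts on `Z` by `A`. The base `D` has an open cover `U`, the `φ i` are the local
trivialisations: local biholomorphisms `φ i : U i × Z → X` over the base, injective, with image
`π ⁻¹ (U i)`, and the transition maps are `(b, z) ↦ (b, act (u b) z)`, `u` locally a
holomorphic map. -/
structure IsTorusBundle (A : TorusAction J r Z) (π : X → D) {ι : Type*}
    (U : ι → Set D) (φ : ι → D × Z → X) : Prop where
  isOpen : ∀ i, IsOpen (U i)
  cover : ∀ b, ∃ i, b ∈ U i
  proj : ∀ i, ∀ a : D × Z, a.1 ∈ U i → π (φ i a) = a.1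
  surj : ∀ i x, π x ∈ U i → ∃ a : D × Z, a.1 ∈ U i ∧ φ i a = x
  inj : ∀ i, ∀ a b : D × Z, a.1 ∈ U i → b.1 ∈ U i → φ i a = φ i b → a = b
  holo : ∀ i, ∀ a : D × Z, a.1 ∈ U i → IsLocalDiffeomorphAt (I.prod J) K ω (φ i) a
  trans : ∀ i j, ∀ b₀ ∈ U i, b₀ ∈ U j → ∃ u : D → Fin r → ℂ,
    ContMDiffAt I 𝓘(ℂ, Fin r → ℂ) ω u b₀ ∧
      ∀ᶠ b in 𝓝 b₀, ∀ z, φ i (b, z) = φ j (b, A.act (u b) z)

variable {K : ModelWithCorners ℂ E H}

/-- `q : X → Y` is a finite étale cover. -/
structure IsFiniteCover (K : ModelWithCorners ℂ E H) {X Y : Type*} [TopologicalSpace X]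
    [ChartedSpace H X] [TopologicalSpace Y] [ChartedSpace H Y] (q : X → Y) : Prop where
  diffeo : IsLocalDiffeomorph K K ω q
  covering : IsCoveringMap q
  finite : ∀ y, (q ⁻¹' {y}).Finite
  surj : Function.Surjective q

end quotients

end Vale.Agent.P299.H904
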